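import Mathlib

/-!
# P226 pool job GEN-L2 (helper72): orthonormal coordinates on a hyperplane

A co-isometry from `R^(d+1)` onto `R^d` whose kernel is the line spanned by `q`; it pushes the
standard Gaussian to the standard Gaussian.
-/

namespace Vale.Agent.Lib.P226.H72

open MeasureTheory ProbabilityTheory

section General

variable {E F : Type*} [NormedAddCommGroup E] [InnerProductSpace ℝ E]
  [NormedAddCommGroup F] [InnerProductSpace ℝ F]

/-- Orthogonal projection onto `K` followed by an isometry of `K` onto `F`. -/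
noncomputable def coiso (K : Submodule ℝ E) [K.HasOrthogonalProjection] (e : K ≃ₗᵢ[ℝ] F) :
    E →L[ℝ] F :=
  e.toContinuousLinearEquiv.toContinuousLinearMap.comp K.orthogonalProjectionOnto

/-- The inverse isometry followed by the inclusion of `K`. -/
noncomputable def incl (K : Submodule ℝ E) (e : K ≃ₗᵢ[ℝ] F) : F →L[ℝ] E :=
  K.subtypeL.comp e.symm.toContinuousLinearEquiv.toContinuousLinearMap

theorem coiso_apply (K : Submodule ℝ E) [K.HasOrthogonalProjection] (e : K ≃ₗᵢ[ℝ] F) (x : E) :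
    coiso K e x = e (K.orthogonalProjectionOnto x) := rfl

theorem incl_apply (K : Submodule ℝ E) (e : K ≃ₗᵢ[ℝ] F) (y : F) :
    incl K e y = ((e.symm y : K) : E) := rfl

theorem adjoint_coiso [CompleteSpace E] [CompleteSpace F] (K : Submodule ℝ E)
    [K.HasOrthogonalProjection] (e : K ≃ₗᵢ[ℝ] F) :
    ContinuousLinearMap.adjoint (coiso K e) = incl K e := by
  symm
  rw [ContinuousLinearMap.eq_adjoint_iff]
  intro y x
  rw [incl_apply, coiso_apply,
    ← Submodule.inner_orthogonalProjectionOnto_eq_of_mem_left (e.symm y) x,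
    ← e.inner_map_map (e.symm y) (K.orthogonalProjectionOnto x), e.apply_symm_apply]

theorem norm_incl (K : Submodule ℝ E) (e : K ≃ₗᵢ[ℝ] F) (y : F) : ‖incl K e y‖ = ‖y‖ := by
  rw [incl_apply, ← Submodule.coe_norm, e.symm.norm_map]

theorem coiso_incl (K : Submodule ℝ E) [K.HasOrthogonalProjection] (e : K ≃ₗᵢ[ℝ] F) (y : F) :
    coiso K e (incl K e y) = y := by
  rw [coiso_apply, incl_apply, Submodule.orthogonalProjectionOnto_mem_subspace_eq_self,
    e.apply_symm_apply]

theorem incl_coiso (K : Submodule ℝ E) [K.HasOrthogonalProjection] (e : K ≃ₗᵢ[ℝ] F) (x : E) :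
    incl K e (coiso K e x) = K.starProjection x := by
  rw [incl_apply, coiso_apply, e.symm_apply_apply, Submodule.coe_orthogonalProjectionOnto_apply]

theorem norm_coiso (K : Submodule ℝ E) [K.HasOrthogonalProjection] (e : K ≃ₗᵢ[ℝ] F) (x : E) :
    ‖coiso K e x‖ = ‖K.starProjection x‖ := by
  rw [← incl_coiso K e x, norm_incl]

theorem norm_coiso_le (K : Submodule ℝ E) [K.HasOrthogonalProjection] (e : K ≃ₗᵢ[ℝ] F) (x : E) :
    ‖coiso K e x‖ ≤ ‖x‖ := by
  rw [norm_coiso]
  exact Submodule.norm_starProjection_apply_le K x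

theorem norm_comp_coiso (K : Submodule ℝ E) [K.HasOrthogonalProjection] (e : K ≃ₗᵢ[ℝ] F)
    (M : StrongDual ℝ F) : ‖M.comp (coiso K e)‖ = ‖M‖ := by
  apply le_antisymm
  · refine ContinuousLinearMap.opNorm_le_bound _ (norm_nonneg M) fun x => ?_
    rw [ContinuousLinearMap.comp_apply]
    calc ‖M (coiso K e x)‖ ≤ ‖M‖ * ‖coiso K e x‖ := M.le_opNorm _
      _ ≤ ‖M‖ * ‖x‖ := mul_le_mul_of_nonneg_left (norm_coiso_le K e x) (norm_nonneg M)
  · refine ContinuousLinearMap.opNorm_le_bound _ (norm_nonneg _) fun y => ?_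
    have h1 : M y = (M.comp (coiso K e)) (incl K e y) := by
      rw [ContinuousLinearMap.comp_apply, coiso_incl]
    rw [h1]
    calc ‖(M.comp (coiso K e)) (incl K e y)‖
        ≤ ‖M.comp (coiso K e)‖ * ‖incl K e y‖ := ContinuousLinearMap.le_opNorm _ _
      _ = ‖M.comp (coiso K e)‖ * ‖y‖ := by rw [norm_incl]

theorem map_coiso [FiniteDimensional ℝ E] [FiniteDimensional ℝ F] [MeasurableSpace E]
    [BorelSpace E] [MeasurableSpace F] [BorelSpace F] (K : Submodule ℝ E)
    [K.HasOrthogonalProjection] (e : K ≃ₗᵢ[ℝ] F) :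
    (stdGaussian E).map (coiso K e) = stdGaussian F := by
  apply Measure.ext_of_charFunDual
  ext M
  rw [charFunDual_map, charFunDual_stdGaussian, charFunDual_stdGaussian, norm_comp_coiso]

end General

theorem exists_hyperplane_coisometry (d : ℕ) (q : EuclideanSpace ℝ (Fin (d + 1))) (hq : q ≠ 0) :
    ∃ L : EuclideanSpace ℝ (Fin (d + 1)) →L[ℝ] EuclideanSpace ℝ (Fin d),
      (stdGaussian (EuclideanSpace ℝ (Fin (d + 1)))).map L
        = stdGaussian (EuclideanSpace ℝ (Fin d)) ∧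
      (∀ y, ‖ContinuousLinearMap.adjoint L y‖ = ‖y‖) ∧
      (∀ x, ContinuousLinearMap.adjoint L (L x) = x - (inner ℝ x q / ‖q‖ ^ 2) • q) ∧
      (∀ z, ‖L z‖ ^ 2 = ‖z‖ ^ 2 - inner ℝ z q ^ 2 / ‖q‖ ^ 2) := by
  have : Fact (Module.finrank ℝ (EuclideanSpace ℝ (Fin (d + 1))) = d + 1) :=
    ⟨finrank_euclideanSpace_fin⟩
  have hfin : Module.finrank ℝ ((ℝ ∙ q)ᗮ : Submodule ℝ (EuclideanSpace ℝ (Fin (d + 1)))) = d :=
    Submodule.finrank_orthogonal_span_singleton hq
  obtain ⟨e⟩ : Nonempty (((ℝ ∙ q)ᗮ : Submodule ℝ (EuclideanSpace ℝ (Fin (d + 1))))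
      ≃ₗᵢ[ℝ] EuclideanSpace ℝ (Fin d)) :=
    ⟨((stdOrthonormalBasis ℝ ((ℝ ∙ q)ᗮ : Submodule ℝ (EuclideanSpace ℝ (Fin (d + 1))))).reindex
      (finCongr hfin)).repr⟩
  have hproj : ∀ x : EuclideanSpace ℝ (Fin (d + 1)),
      ((ℝ ∙ q)ᗮ : Submodule ℝ (EuclideanSpace ℝ (Fin (d + 1)))).starProjection x
        = x - (inner ℝ x q / ‖q‖ ^ 2) • q := by
    intro x
    rw [Submodule.starProjection_orthogonal_val, Submodule.starProjection_singleton,
      real_inner_comm]
    rfl
  have hq2 : ‖q‖ ^ 2 ≠ 0 := by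
    have := norm_pos_iff.mpr hq
    positivity
  refine ⟨coiso _ e, map_coiso _ e, ?_, ?_, ?_⟩
  · intro y
    rw [adjoint_coiso, norm_incl]
  · intro x
    rw [adjoint_coiso, incl_coiso, hproj]
  · intro z
    rw [norm_coiso, hproj, norm_sub_sq_real, norm_smul, inner_smul_right, mul_pow,
      Real.norm_eq_abs, sq_abs]
    field_simp
    ring

end Vale.Agent.Lib.P226.H72
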